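import Vale.Agent.P062.Data.Proof

/-!
Snaky is a winner: on the initially empty square grid Maker, moving first and with no handicap, has
a strategy that forces owning an allowed copy of Snaky.
-/

namespace Vale.Agent.Results.P062.SnakyMakerWins

open Vale.Agent.P062

theorem result : MakerWins := Data.makerWins

end Vale.Agent.Results.P062.SnakyMakerWins
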